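import Mathlib

/-!
# P067: the problem's definitions

A finite pure `d`-dimensional complex is given by its set `T` of `d`-faces
(`(d+1)`-element vertex sets). Its `i`-faces are `faces T (i+1)`: the sets of `i+1`
vertices contained in some member of `T`. Cochains are functions on vertex sets;
only their values on faces matter.
-/

namespace Vale.P067

open Finset

variable {V : Type} [DecidableEq V]

/-- The faces with `k` vertices of the complex with top faces `T`. -/
def faces (T : Finset (Finset V)) (k : ℕ) : Finset (Finset V) :=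
  T.biUnion (fun t => t.powersetCard k)

/-- The top faces containing `s`. -/
def star (T : Finset (Finset V)) (s : Finset V) : Finset (Finset V) :=
  T.filter (fun t => s ⊆ t)

/-- Coboundary: from functions on `k`-vertex sets to functions on `(k+1)`-vertex sets. -/
def delta (k : ℕ) (f : Finset V → ZMod 2) (τ : Finset V) : ZMod 2 :=
  ∑ σ ∈ τ.powersetCard k, f σ

/-- The weight `w_i` of an `i`-face of the pure `d`-dimensional complex `T`. -/
noncomputable def weight (T : Finset (Finset V)) (d i : ℕ) (σ : Finset V) : ℝ :=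
  ((star T σ).card : ℝ) / (((d + 1).choose (i + 1) : ℝ) * (T.card : ℝ))

/-- The norm `‖f‖_i` of the pure `d`-dimensional complex `T`. -/
noncomputable def norm (T : Finset (Finset V)) (d i : ℕ) (f : Finset V → ZMod 2) : ℝ :=
  ∑ σ ∈ (faces T (i + 1)).filter (fun σ => f σ ≠ 0), weight T d i σ

/-- `f ∈ Z^i`. -/
def IsCocycle (T : Finset (Finset V)) (i : ℕ) (f : Finset V → ZMod 2) : Prop :=
  ∀ τ ∈ faces T (i + 2), delta (i + 1) f τ = 0

/-- `f ∈ B^i` (for `i = 0`: `f` is constant on vertices, as `delta 0 g σ = g ∅`). -/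
def IsCobound (T : Finset (Finset V)) (i : ℕ) (f : Finset V → ZMod 2) : Prop :=
  ∃ g : Finset V → ZMod 2, ∀ σ ∈ faces T (i + 1), f σ = delta i g σ

/-- `‖δ f‖_{i+1} ≥ ε dist(f, B^i)` for all `i < d` (the distance is a minimum). -/
def IsCoboundaryExpander (T : Finset (Finset V)) (d : ℕ) (ε : ℝ) : Prop :=
  ∀ i < d, ∀ f : Finset V → ZMod 2, ∃ b : Finset V → ZMod 2,
    IsCobound T i b ∧ ε * norm T d i (f - b) ≤ norm T d (i + 1) (delta (i + 1) f)

/-- Cosystolic expansion. -/
def IsCosystolicExpander (T : Finset (Finset V)) (d : ℕ) (ε : ℝ) : Prop :=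
  (∀ i < d, ∀ f : Finset V → ZMod 2, ∃ z : Finset V → ZMod 2,
    IsCocycle T i z ∧ ε * norm T d i (f - z) ≤ norm T d (i + 1) (delta (i + 1) f)) ∧
  ∀ i < d, ∀ f : Finset V → ZMod 2, IsCocycle T i f → ¬ IsCobound T i f → ε ≤ norm T d i f

end Vale.P067
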